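import Vale.Agent.P014T.Dr.Kol
import Vale.Agent.P014T.Ki.Wp
import Vale.Agent.P014T.Iv.Two
import Vale.Agent.P004F.Ch.Irr
import Vale.Agent.P004F.Pt.Pert

/-! # P014T, block Pg: elements of the Galois group for the Kolyvagin bound (helper7) -/

set_option linter.all false

open NumberField Matrix

noncomputable section

namespace Vale.Agent.P014T.Pg

open Vale.Agent.P022 (Qb GQ IsConj)
open Vale.Agent.P027M.S (Inert)
open Vale.Agent.P022E.GW (Ov Fb Gn)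
open Vale.Agent.P004F (M2)
open Vale.Agent.P004F.En (Big rep_ok)
open Vale.Agent.P004S (Rep Tr ep)
open Vale.Agent.P004S.Aq (cz cy cz_spec)
open Vale.Agent.P004M.TE (mt rep)
open Dr

theorem comm_Ha (x g : GQ) : x * g * x⁻¹ * g⁻¹ ∈ Ha := Subgroup.mem_iInf.2 fun M => by
  obtain ⟨-, χ, -, -, h, -⟩ := ex_cy (M + 1)
  rw [h, map_mul, map_mul, map_mul, map_inv, map_inv, mul_inv_cancel_comm, mul_inv_cancel]

theorem dvd_iff {n : ℕ} {x : ℤ_[2]} : (2 : ℤ_[2]) ^ n ∣ x ↔ PadicInt.toZModPow n x = 0 := by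
  rw [← RingHom.mem_ker, PadicInt.ker_toZModPow, Ideal.mem_span_singleton, Nat.cast_ofNat]

theorem Hm_two {n : ℕ} {g : GQ} : g ∈ Hm (2 ^ n) ↔ (2 : ℤ_[2]) ^ n ∣ cz g - 1 := by
  rw [dvd_iff, map_sub, map_one, sub_eq_zero]
  obtain ⟨ζ, χ, h1, -, h2, h3⟩ := ex_cy (2 ^ n)
  have := h3 g _ (cz_spec g h1.pow_eq_one)
  rw [h2, ← Units.val_inj, this, ZMod.natCast_zmod_val, Units.val_one]

theorem cz_Ha {g : GQ} (h : g ∈ Ha) : (cz g : ℤ_[2]) = 1 :=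
  PadicInt.ext_of_toZModPow.1 fun n => by
    have := Hm_two.1 (Ha_le (M := 2 ^ n) (by positivity) h)
    rwa [dvd_iff, map_sub, sub_eq_zero] at this

theorem cz_conj {c : GQ} (h : IsConj c) : (cz c : ℤ_[2]) = -1 := Subtype.ext (Iv.cy_conj h)

theorem cz_inert {l : ℕ} {P : Ideal (𝓞 Qb)} (o : Ov l P) (h : l ≠ 2) {g : GQ} (i : Inert P g) :
    (cz g : ℤ_[2]) = 1 := Subtype.ext (P004S.Aq.cy_in o h i)

/-- inertia at two contains an element whose cyclotomic character has infinite order -/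
theorem ex_in {P : Ideal (𝓞 Qb)} (o : Ov 2 P) :
    ∃ g, Inert P g ∧ Function.Injective fun m : ℕ => (cz g : ℤ_[2]) ^ m := by
  obtain ⟨t, t1, t2⟩ := P022E.GW.Tg.ex_gn' o
  obtain ⟨ζ, h⟩ := HasEnoughRootsOfUnity.exists_primitiveRoot Qb (2 ^ 3)
  have h4 : ζ ^ 4 = -1 := (h.pow (by norm_num) (show 2 ^ 3 = 4 * 2 by norm_num)).eq_neg_one_of_two_right
  have w : (ζ + ζ ^ 7) ^ 2 = ((2 : ℕ) : Qb) := by
    push_cast
    linear_combination (ζ ^ 10 + 2 * ζ ^ 4 - ζ ^ 6 + ζ ^ 2 - 2) * h4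
  have k : Iv.lam t ≠ 0 := fun e => by
    have e1 : (cz t : ℤ_[2]) ^ 2 = 1 := Subtype.ext ((Iv.Lg_zero (Iv.un_cy t)).1 e)
    have e2 := t2 _ w
    have e3 : t (ζ + ζ ^ 7) = ζ + ζ ^ 7 := by
      rw [map_add, map_pow, cz_spec t h.pow_eq_one]
      rcases sq_eq_one_iff.1 e1 with a | a <;> rw [a]
      · rw [map_one, show (1 : ZMod (2 ^ 3)).val = 1 from rfl, pow_one]
      · rw [map_neg, map_one, show (-1 : ZMod (2 ^ 3)).val = 7 from rfl]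
        linear_combination (ζ ^ 45 - ζ ^ 41 + ζ ^ 37 - ζ ^ 33 + ζ ^ 29 - ζ ^ 25 + ζ ^ 21 - ζ ^ 17 + ζ ^ 13
          - ζ ^ 9 + ζ ^ 5 - ζ) * h4
    rw [e3, eq_neg_iff_add_eq_zero, ← two_mul, mul_eq_zero] at e2
    rw [e2.resolve_left two_ne_zero] at w
    norm_num at w
  have p (m : ℕ) : Iv.lam (t ^ m) = m * Iv.lam t := by
    induction m with
    | zero => simpa using Iv.lam_mul 1 1
    | succ m ih => rw [pow_succ, Iv.lam_mul, ih]; push_cast; ring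
  refine ⟨t, t1, fun m m' e => ?_⟩
  have : cy (t ^ m) = cy (t ^ m') := by
    rw [map_pow, map_pow]; exact_mod_cast congrArg (fun x : ℤ_[2] => (x : ℚ_[2])) e
  have := congrArg Iv.Lg this
  exact_mod_cast mul_right_cancel₀ k ((p m).symm.trans (this.trans (p m')))

open Polynomial in
/-- the cyclotomic twist without invariants of inertia at two -/
theorem ex_tw (r : GQ →* M2 ℤ_[2]) {P : Ideal (𝓞 Qb)} (o : Ov 2 P) (k : ℕ) :
    ∃ g M, Inert P g ∧ 2 ^ k ∣ M ∧ ((cz g : ℤ_[2]) ^ M • r g - 1).det ≠ 0 ∧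
      ((cz g⁻¹ : ℤ_[2]) ^ M • r g - 1).det ≠ 0 := by
  obtain ⟨g, h1, h2⟩ := ex_in o
  have f (a b c : ℤ_[2]) (h : a ≠ 0 ∨ c ≠ 0) : {x | a * x ^ 2 + b * x + c = 0}.Finite := by
    refine (finite_setOf_isRoot (p := C a * X ^ 2 + C b * X + C c) fun e => ?_).subset fun x e => by
      simpa using e
    have e0 := congrArg (coeff · 0) e
    have e2 := congrArg (coeff · 2) e
    simp [coeff_X, coeff_C] at e0 e2
    exact h.elim (· e2) (· e0)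
  obtain ⟨_, ⟨m, rfl⟩, hm⟩ := (Set.infinite_range_of_injective (h2.comp (mul_right_injective₀
    (a := 2 ^ k) (by positivity)))).exists_notMem_finite
    ((f (r g).det (-(r g).trace) 1 (.inr one_ne_zero)).union (f 1 (-(r g).trace) (r g).det (.inl one_ne_zero)))
  refine ⟨g, 2 ^ k * m, h1, ⟨m, rfl⟩, fun e => hm (.inl ?_), fun e => hm (.inr ?_)⟩
  · simp [det_fin_two, trace_fin_two] at e ⊢
    linear_combination e
  · have u : (cz g : ℤ_[2]) ^ (2 ^ k * m) * (cz g⁻¹ : ℤ_[2]) ^ (2 ^ k * m) = 1 := by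
      rw [← mul_pow, ← Units.val_mul, ← map_mul, mul_inv_cancel, map_one, Units.val_one, one_pow]
    simp only [Set.mem_setOf_eq, Function.comp]
    generalize (cz g⁻¹ : ℤ_[2]) ^ (2 ^ k * m) = y at *
    generalize (cz g : ℤ_[2]) ^ (2 ^ k * m) = x at *
    simp [det_fin_two, trace_fin_two] at e ⊢
    linear_combination x ^ 2 * e - ((r g 0 0 * r g 1 1 - r g 0 1 * r g 1 0) * (x * y + 1) -
      x * (r g 0 0 + r g 1 1)) * u

/-- **Kolyvagin primes** -/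
theorem kpx {N M : ℕ} (ρ : GQ →* M2 (Zn N)) (S : Finset ℕ) {R : Type} [CommRing R] (ι : Zn N →+* R)
    (ψ : GQ →* R) (m : M ≠ 0) {V : Subgroup GQ} (hV : IsOpen (V : Set GQ))
    (lc : ∀ w ∈ V, aa ρ ι ψ w = 1) {g : GQ} (h1 : g ∈ Hm (2 ^ (N + 2))) (h2 : (1 - aa ρ ι ψ g).det = 0)
    {W : Subgroup GQ} (hW : IsOpen (W : Set GQ)) (T : Finset ℕ) :
    ∃ k : Kp ρ S ι ψ M, k.l ∉ T ∧ g⁻¹ * k.φ ∈ W ∧ aa ρ ι ψ k.φ = aa ρ ι ψ g := by
  obtain ⟨l, φ, Q, a, o, f, ⟨⟨b1, b2⟩, b3⟩, -⟩ := P004F.Pt.cheb g (W := W ⊓ V ⊓ Hm (2 ^ (N + 2)))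
    ((hW.inter hV).inter (Hm_open (by positivity))) ∅ (T ∪ S ∪ M.primeFactors ∪ {2})
  simp only [Finset.mem_union, not_or, Finset.mem_singleton, Nat.mem_primeFactors] at a
  obtain ⟨τ, t⟩ := P022E.GW.Tg.ex_gn' o
  have e : aa ρ ι ψ φ = aa ρ ι ψ g := by rw [← mul_inv_cancel_left g φ, aa_mul, lc _ b2, mul_one]
  refine ⟨⟨l, Q, φ, τ, o, f, t, a.1.1.2, fun d => a.1.2 ⟨o.1, d, m⟩, ?_, e ▸ h2⟩, a.1.1.1, b1, e⟩
  obtain ⟨ζ, χ, c1, -, c2, c3⟩ := ex_cy (2 ^ (N + 2))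
  have := c3 φ l (root_cong o (nd_two o a.2 _) f c1.pow_eq_one)
  rw [(c2 φ).1 (mul_inv_cancel_left g φ ▸ mul_mem h1 b3), Units.val_one, ← Nat.cast_one,
    ZMod.natCast_eq_natCast_iff'] at this
  exact this.symm.trans (Nat.mod_eq_of_lt (Nat.one_lt_two_pow (by omega)))

theorem un_ne {x : ℤ_[2]} (h : x ≠ 0) : ∃ c : ℕ, x ∣ 2 ^ c :=
  ⟨x.valuation, ((PadicInt.unitCoeff h)⁻¹ : ℤ_[2]ˣ), (Units.eq_mul_inv_iff_mul_eq _).2
    ((mul_comm _ _).trans (PadicInt.unitCoeff_spec h).symm)⟩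

variable {A B : ℤ} (hD : 4 * (A : ℚ) ^ 3 + 27 * (B : ℚ) ^ 2 ≠ 0)

theorem ex_rep : ∃ S, Rep (rep hD) S ∧
    ∀ l : ℕ, l.Prime → l ∉ S → ¬ (l : ℤ) ∣ 2 * (4 * A ^ 3 + 27 * B ^ 2) := by
  have h0 : (2 * (4 * A ^ 3 + 27 * B ^ 2)).natAbs ≠ 0 := by
    rw [Int.natAbs_ne_zero]
    exact mul_ne_zero two_ne_zero (by exact_mod_cast hD)
  have hS : ∀ l : ℕ, l.Prime → l ∉ (2 * (4 * A ^ 3 + 27 * B ^ 2)).natAbs.primeFactors →
      ¬ (l : ℤ) ∣ 2 * (4 * A ^ 3 + 27 * B ^ 2) := fun l hl h k =>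
    h (Nat.mem_primeFactors.2 ⟨hl, Int.natCast_dvd.1 k, h0⟩)
  exact ⟨_, rep_ok hD (by_contra fun k => hS 2 Nat.prime_two k (dvd_mul_right _ _)) hS, hS⟩

theorem tr_iff {n : ℕ} {g : GQ} :
    Tr (rep hD) n g ↔ ∀ i i', (2 : ℤ_[2]) ^ n ∣ (mt hD g - 1) i i' := by
  refine forall₂_congr fun i i' => ?_
  have : (P004S.mt (rep hD) g - 1) i i' = (((mt hD g - 1) i i' : ℤ_[2]) : ℚ_[2]) := by
    rw [show P004S.mt (rep hD) g = (mt hD g).map (algebraMap ℤ_[2] ℚ_[2]) from rfl]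
    by_cases h : i = i' <;> simp [one_apply, h]
  rw [this, P004F.Pat.dvd_iff_norm, PadicInt.padic_norm_e_of_padicInt, one_div, inv_pow,
    _root_.zpow_neg, zpow_natCast]

/-- the kernel of the reduction modulo `2 ^ n` -/
def Kr (r : GQ →* M2 ℤ_[2]) (n : ℕ) : Subgroup GQ :=
  ((PadicInt.toZModPow n).mapMatrix.toMonoidHom.comp r).ker

instance (r : GQ →* M2 ℤ_[2]) (n : ℕ) : (Kr r n).Normal := MonoidHom.normal_ker _

theorem mem_Kr {r : GQ →* M2 ℤ_[2]} {n : ℕ} {g : GQ} :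
    g ∈ Kr r n ↔ ∀ i i', (2 : ℤ_[2]) ^ n ∣ (r g - 1) i i' := by
  rw [Kr, MonoidHom.mem_ker, ← sub_eq_zero, ← map_one (PadicInt.toZModPow n).mapMatrix]
  refine (Iff.of_eq (congrArg (· = 0) (map_sub (PadicInt.toZModPow n).mapMatrix (r g) 1).symm)).trans ?_
  rw [← Matrix.ext_iff]
  exact forall₂_congr fun i i' => dvd_iff.symm

theorem Kr_open (n : ℕ) : IsOpen (Kr (mt hD) n : Set GQ) := by
  obtain ⟨S, h, -⟩ := ex_rep hD
  rw [show Kr (mt hD) n = h.Kn n from Subgroup.ext fun g => mem_Kr.trans (tr_iff hD).symm]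
  exact h.Kn_open n

theorem Kr_Hm {n : ℕ} {g : GQ} (h : g ∈ Kr (mt hD) n) : g ∈ Hm (2 ^ n) := by
  rw [Hm_two, ← Ki.det_mt hD, dvd_iff, map_sub, map_one, RingHom.map_det, show RingHom.mapMatrix _ _ = 1 from h, det_one,
    sub_self]

/-- a big element which fixes all roots of unity -/
theorem big : ∃ k ∈ Ha, Big (rep hD) k := by
  obtain ⟨S, h, hS⟩ := ex_rep hD
  obtain ⟨l, g, hl, h1, h2, h3⟩ := P022K.Cheb.exists_fr (h.Kn_open 3) (h.Kn 3).one_mem S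
  obtain ⟨t, -, h4, h5⟩ := P004F.En.tr_frob hD hl (hS l hl h1) h2
  let f := algebraMap ℚ_[2] (AlgebraicClosure ℚ_[2])
  let ρ : GQ →* M2 (AlgebraicClosure ℚ_[2]) :=
    f.mapMatrix.toMonoidHom.comp ((Units.coeHom _).comp (rep hD))
  have t1 : ∀ x, (ρ x).trace = f (P004S.mt (rep hD) x).trace := fun x =>
    (AddMonoidHom.map_trace f _).symm
  have t2 : (ρ g).det = f (ep (rep hD) g) := (RingHom.map_det f _).symm
  obtain ⟨x, hx⟩ := P004F.En.ex_comm two_ne_zero ρ (P004M.TE.irr_rep hD) (g := g) (by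
    rw [t1, t2, h4, h5, map_intCast, map_natCast]
    intro e
    have e1 : t ^ 2 = 4 * l := by exact_mod_cast e
    obtain ⟨u, rfl⟩ : 2 ∣ t := Int.prime_two.dvd_of_dvd_pow (n := 2) ⟨2 * l, by linarith⟩
    exact hl.prime.not_isSquare ⟨u.natAbs, by
      rw [← Int.natAbs_mul, show u * u = l by linarith, Int.natAbs_natCast]⟩)
  refine ⟨_, comm_Ha x g, ?_, h.tr_mul (h.tr_conj h3 x) (h.tr_inv h3), fun e => hx ?_⟩
  · rw [P004S.ep_mul, P004F.En.ep_conj, ← P004S.ep_mul, mul_inv_cancel, P004S.ep_one]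
  · rw [t1, e, map_ofNat]

/-- the element `u` of the perturbation; it also serves as `g₀` of the row `SHP` -/
theorem ex_u (k : ℕ) : ∃ u ∈ Ha, u ∈ Kr (mt hD) k ∧ ∃ w : ℤ_[2], (mt hD u - 1).det = w ∧
    (mt hD u).det = 1 ∧ (mt hD u).trace = 2 - w ∧ 4 ^ k ∣ w ∧ w ≠ 0 ∧ w ≠ 4 := by
  obtain ⟨S, h, -⟩ := ex_rep hD
  obtain ⟨u, h1, h2⟩ := big hD
  have m := (Kr (mt hD) (k + 2)).pow_index_mem u
  have b := h2.pow h (P004S.idx_ne (Kr_open hD (k + 2)))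
  have a := pow_mem h1 (Kr (mt hD) (k + 2)).index
  generalize u ^ _ = v at *
  have d : (mt hD v).det = 1 := (Ki.det_mt hD v).trans (cz_Ha a)
  choose Y hY using mem_Kr.1 m
  have e : (mt hD v - 1).det = 4 ^ k * (16 * (of Y).det) := by
    rw [show mt hD v - 1 = (2 : ℤ_[2]) ^ (k + 2) • of Y from Matrix.ext hY, Matrix.det_smul, Fintype.card_fin,
      show (4 : ℤ_[2]) = 2 ^ 2 by norm_num, ← pow_mul, ← pow_mul]
    ring
  have t : (mt hD v).trace = 2 - (mt hD v - 1).det := by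
    rw [det_fin_two] at d
    simp [det_fin_two, trace_fin_two]
    linear_combination d
  refine ⟨v, a, mem_Kr.2 fun i j => (pow_dvd_pow _ (by omega)).trans (mem_Kr.1 m i j), _, rfl, d, t,
    ⟨_, e⟩, fun z => b.ne ?_, fun z => ?_⟩
  · rw [z, sub_zero] at t
    exact (AddMonoidHom.map_trace (algebraMap ℤ_[2] ℚ_[2]) _).symm.trans (by rw [t]; rfl)
  · have := congrArg (PadicInt.toZModPow 3) (e.symm.trans z)
    rw [map_mul, map_mul, map_ofNat _ 16, map_ofNat _ 4, show (16 : ZMod (2 ^ 3)) = 0 from rfl, zero_mul,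
      mul_zero] at this
    exact absurd this (by decide)

/-- Burnside over the integers -/
theorem abs : ∃ e : ℕ, ∀ Y : M2 ℤ_[2], (2 : ℤ_[2]) ^ e • Y ∈ Submodule.span ℤ_[2] (Set.range (mt hD)) := by
  obtain ⟨S, hr, -⟩ := ex_rep hD
  obtain ⟨c, hc⟩ : ∃ c, IsConj c := P004M.TE.exists_isConj hD
  let f := algebraMap ℤ_[2] ℚ_[2]
  let ρ : GQ →* M2 ℚ_[2] := (Units.coeHom _).comp (rep hD)
  have h := P004F.Ch.burn ρ two_ne_zero hr.irr (P004F.Pt.cj_sq hc) (by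
    show (f.mapMatrix (mt hD c)).det = -1
    rw [← RingHom.map_det, P004M.TE.det_conj _ hc, map_neg, map_one])
  set L := Submodule.span ℤ_[2] (Set.range (mt hD))
  let F : M2 ℤ_[2] →ₗ[ℤ_[2]] M2 ℚ_[2] := (Algebra.linearMap ℤ_[2] ℚ_[2]).mapMatrix
  have k (p : Fin 2 × Fin 2) : ∃ n : ℕ, (2 : ℤ_[2]) ^ n • single p.1 p.2 1 ∈ L := by
    obtain ⟨t, ht⟩ := multiple_mem_span_of_mem_localization_span (nonZeroDivisors ℤ_[2]) ℚ_[2]
      (Set.range ρ) (F (single p.1 p.2 1)) (h ▸ Submodule.mem_top)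
    rw [show Set.range ρ = F '' Set.range (mt hD) from (Set.range_comp F (mt hD)), ← Submodule.map_span,
      Submonoid.smul_def, ← map_smul] at ht
    obtain ⟨y, m, e⟩ := ht
    obtain rfl : y = _ := Matrix.map_injective (IsFractionRing.injective ℤ_[2] ℚ_[2]) e
    obtain ⟨n, y, e⟩ := un_ne (nonZeroDivisors.ne_zero t.2)
    exact ⟨n, by rw [e, mul_comm, mul_smul]; exact L.smul_mem _ m⟩
  choose n m using k
  refine ⟨∑ p, n p, fun Y => ?_⟩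
  rw [matrix_eq_sum_single Y, ← Finset.sum_product', Finset.smul_sum]
  refine sum_mem fun p _ => ?_
  obtain ⟨c, hc⟩ := Nat.exists_eq_add_of_le (Finset.single_le_sum (f := n) (fun _ _ => Nat.zero_le _)
    (Finset.mem_univ p))
  have := L.smul_mem (2 ^ c * Y p.1 p.2) (m p)
  rwa [smul_smul, smul_single, smul_eq_mul, mul_one, mul_right_comm, ← pow_add, add_comm c, ← hc,
    ← smul_eq_mul, ← smul_single] at this

end Vale.Agent.P014T.Pg
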